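import Vale.Agent.P011UGA.IF3
import Vale.Agent.P011UTS.Co

/-!
The centre of a maximal Levi subalgebra and the centraliser of its central torus.
-/

set_option autoImplicit false
set_option linter.all false

namespace Vale.Agent.P011UFX

open Matrix Vale.Agent.P183CH Vale.Agent.P183CH.Chev Vale.Agent.P011U Vale.Agent.P011UC
  Vale.Agent.P011UP Vale.Agent.P011UGA

attribute [local instance 100] LieRing.ofAssociativeRing

variable {D : Chev} {K : Type} [Field K] {J : Set (Fin D.R.r)} {m : Fin D.R.r → ℤ} {Z : D.Mat K}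

/-- the weights of a cocharacter -/
def cw (m : Fin D.R.r → ℤ) (a : Fin D.n) : ℤ := ∑ i, D.μ i a * m i

theorem co_val (t : Kˣ) :
    (co GG_ok m t : D.grp K).1.1 = diagonal fun a => ((t ^ cw m a : Kˣ) : K) := by
  rw [co_eq]
  refine (hT_val _).trans (congrArg diagonal (funext fun a => congrArg Units.val ?_))
  simp only [← _root_.zpow_mul, prod_zpow, mul_comm (m _)]
  rfl

theorem of_comm [Infinite K] (hm : Dom m J) {g : D.grp K}
    (h : ∀ t, Commute (co GG_ok m t : D.grp K).1.1 g.1.1) : g ∈ (GG D K).GJ J :=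
  (P011UTS.conj_co GG_ok (R_ok D) hm hm fun t =>
    mul_inv_eq_iff_eq_mul.2 (Subtype.ext (Units.ext (h t).symm))).1

theorem lie_sp (h : Z ∈ lie D K J) :
    Z ∈ Sp K fun a b => ∃ γ : D.Q, D.R.In J γ ∧ D.wt a = D.wt b + γ ᵥ* D.A := by
  refine Submodule.span_le.2 ?_ h
  rintro _ (⟨γ, hγ, j, rfl⟩ | ⟨i, rfl⟩)
  · exact Sp.mono (Dg.ct (mem_Φ.1 hγ).rh.dg) fun a b e => ⟨γ, j, e⟩
  · exact Sp.mono (Dg.ct (dg_h i)) fun a b e => ⟨0, fun _ _ => rfl, e⟩

theorem cp_lie (h : Z ∈ lie D K J) :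
    D.cp 0 Z ∈ Submodule.span K (Set.range fun i => ct K (D.hm i)) := by
  refine Submodule.mem_comap.1 (Submodule.span_le.2 ?_ h)
  rintro _ (⟨γ, hγ, j, rfl⟩ | ⟨i, rfl⟩)
  · rw [SetLike.mem_coe, Submodule.mem_comap, cp_ne (Dg.ct (mem_Φ.1 hγ).rh.dg) (mem_Φ.1 hγ).1]
    exact zero_mem _
  · rw [SetLike.mem_coe, Submodule.mem_comap, cp_self (Dg.ct (dg_h i))]
    exact Submodule.subset_span ⟨i, rfl⟩

theorem ct_hm (i : Fin D.r) : ct K (D.hm i) = diagonal fun a => (D.μ i a : K) := by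
  rw [hm, RingHom.mapMatrix_apply, diagonal_map (map_zero _)]
  rfl

theorem dg_zero [CharZero K] (h : Z ∈ lie D K J)
    (hc : ∀ γ ∈ D.R.Φ, D.R.In J γ → Commute Z (ee D K γ)) : Z ∈ D.Dg K 0 := fun a b e => by
  obtain ⟨γ, h1, h2⟩ := lie_sp h a b e
  by_contra c
  obtain ⟨i, hi⟩ := exists_pos (D := D) (γ := γ) fun e' => c (e' ▸ h2)
  have h3 : i ∈ J := by_contra fun n => by simp [h1 i n] at hi
  have h4 := hc _ ((R_ok D).simple i) (RS.In_α h3)
  have h5 := hc _ ((R_ok D).neg_mem ((R_ok D).simple i)) (RS.In_α h3).neg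
  have h6 : Commute Z (ct K (D.hm i)) := by
    rw [← ef, ← EE_e, ← EE_f, ct_lie, Ring.lie_def]
    exact (h4.mul_right h5).sub_right (h5.mul_right h4)
  have h7 := congrFun₂ h6.eq a b
  rw [ct_hm, mul_diagonal, diagonal_mul, mul_comm, mul_left_inj' e, Int.cast_inj] at h7
  have h8 : D.μ i a = D.μ i b + (γ ᵥ* D.A) i := congrFun h2 i
  rw [show (γ ᵥ* D.A) i = 0 by omega] at hi
  simp at hi

theorem fxl : FXL := fun D _ K _ _ _ j => by
  obtain ⟨m, hm, -⟩ := exists_dom (R_ok D) {i | i ≠ j}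
  refine ⟨fun Z h hc => ⟨fun τ => ?_, fun h0 g hg => of_comm hm fun t => ?_⟩,
    fun X h δ hδ => of_comm hm fun t => hδ _ ?_⟩
  · rw [Ad_apply, Units.mul_inv_eq_iff_eq_mul, hT_val]
    refine diag_comm (Sp.mono (dg_zero h hc) fun a b e => ?_)
    simp only [show ∀ i, D.μ i a = D.μ i b from fun i => by simpa [wt] using congrFun e i]
  · obtain ⟨c, e⟩ := (Submodule.mem_span_range_iff_exists_fun K).1
      (cp_self (dg_zero h hc) ▸ cp_lie h)
    have h1 : ∀ i, i ≠ j → ((Int.castRingHom K).mapMatrix D.A *ᵥ c) i = 0 := fun i hi => by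
      have h2 : ⁅Z, ee D K (D.α i)⁆ = 0 :=
        sub_eq_zero.2 (hc _ ((R_ok D).simple i) (RS.In_α hi)).eq
      simp only [← e, sum_lie, smul_lie, lie_of_dg (Dg.ct (k := K) (rt_simple i).1.rt.rh.dg),
        ← Int.cast_smul_eq_zsmul K, smul_smul, ← Finset.sum_smul, α_pr] at h2
      exact (Finset.sum_congr rfl fun l _ => mul_comm _ (c l)).trans
        ((rt_simple i).1.rt.rh.prim.eq_zero h2)
    have h2 : ∀ i, ((Int.castRingHom K).mapMatrix D.A *ᵥ fun l => (m l : K)) i =
        (pw m (D.R.α i) : K) := fun i => by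
      simp [pw_α, mulVec, dotProduct]
    generalize hκ : ((Int.castRingHom K).mapMatrix D.A *ᵥ c) j = κ
    have h3 : (pw m (D.R.α j) : K) • c - κ • (fun l => (m l : K)) = 0 :=
      eq_zero_of_mulVec_eq_zero (M := (Int.castRingHom K).mapMatrix D.A)
        (by rw [← RingHom.map_det]; exact Int.cast_ne_zero.2 det_ne) (funext fun i => by
          rw [mulVec_sub, mulVec_smul, mulVec_smul, Pi.sub_apply, Pi.smul_apply, Pi.smul_apply, h2]
          by_cases a : i = j
          · rw [a, hκ, smul_eq_mul, smul_eq_mul, mul_comm, sub_self, Pi.zero_apply]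
          · rw [h1 i a, hm.1 i a]
            simp)
    have h4 : (pw m (D.R.α j) : K) • Z = diagonal fun a => κ * (cw m a : K) := by
      rw [← e, Finset.smul_sum]
      simp only [smul_smul, show ∀ l, (pw m (D.R.α j) : K) * c l = κ * m l from
        fun l => sub_eq_zero.1 (congrFun h3 l), ct_hm]
      ext a b
      by_cases e : a = b <;>
        simp [e, cw, Matrix.sum_apply, Finset.mul_sum, mul_comm (D.μ _ _), mul_assoc]
    have h5 : κ ≠ 0 := fun z => h0 ((smul_eq_zero.1 (h4.trans (by simp [z]))).resolve_left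
      (Int.cast_ne_zero.2 (hm.2 j fun n => n rfl).ne'))
    rw [Ad_apply, Units.mul_inv_eq_iff_eq_mul] at hg
    have h6 := (mul_smul_comm _ _ _).trans ((congrArg ((pw m (D.R.α j) : K) • ·) hg).trans
      (smul_mul_assoc _ _ _).symm)
    rw [h4] at h6
    rw [co_val]
    refine diag_comm fun a b e => ?_
    have h7 := congrFun₂ h6 a b
    rw [mul_diagonal, diagonal_mul, mul_comm, mul_left_inj' e, mul_right_inj' h5,
      Int.cast_inj] at h7
    simp only [h7]
  · rw [co_val]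
    refine diag_comm (Sp.mono (lie_sp h) fun a b ⟨γ, h1, e⟩ => ?_)
    have h2 : cw m a = cw m b + pw m γ := by
      rw [cw, cw, pw, ← Finset.sum_add_distrib]
      exact Finset.sum_congr rfl fun i _ => by
        rw [show D.μ i a = D.μ i b + (γ ᵥ* D.A) i from congrFun e i, add_mul]; rfl
    simp only [h2, hm.zero h1, add_zero]

end Vale.Agent.P011UFX
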